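import Vale.Agent.P235.Defs

/-!
Slash powers of the graph `s < m_1, ..., m_n < a, b < t` (all edges of length one).
-/

namespace Vale.Agent.P235.Slash

/-- Vertices of the gadget other than the two ends: `inl false = a`, `inl true = b`, `inr i = m_i`. -/
abbrev GI (n : ℕ) : Type := Bool ⊕ Fin n

/-- Vertices of the gadget: `inl false = s`, `inl true = t`. -/
abbrev GV (n : ℕ) : Type := Bool ⊕ GI n

/-- Edges of the gadget: `(i,0) = s m_i`, `(i,1) = m_i a`, `(i,2) = m_i b`, `x = x t`. -/
abbrev GE (n : ℕ) : Type := (Fin n × Fin 3) ⊕ Bool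

/-- Rank in the gadget. -/
def rk {n : ℕ} : GV n → ℕ
  | .inl false => 0
  | .inl true => 3
  | .inr (.inl _) => 2
  | .inr (.inr _) => 1

/-- Lower end of an edge. -/
def tl {n : ℕ} : GE n → GV n
  | .inl (i, j) => if j = 0 then .inl false else .inr (.inr i)
  | .inr x => .inr (.inl x)

/-- Upper end of an edge. -/
def hd {n : ℕ} : GE n → GV n
  | .inl (i, j) => if j = 0 then .inr (.inr i) else if j = 1 then .inr (.inl false) else .inr (.inl true)
  | .inr _ => .inl true

lemma rk_hd {n : ℕ} (e : GE n) : rk (hd e) = rk (tl e) + 1 := by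
  rcases e with ⟨i, j⟩ | x
  · fin_cases j <;> simp [hd, tl, rk]
  · simp [hd, tl, rk]

/-- Inner vertices of the `K`-th slash power. -/
def In (n : ℕ) : ℕ → Type
  | 0 => Empty
  | K + 1 => GI n ⊕ (GE n × In n K)

instance instFintypeIn (n : ℕ) : (K : ℕ) → Fintype (In n K)
  | 0 => inferInstanceAs (Fintype Empty)
  | K + 1 =>
    letI := instFintypeIn n K
    inferInstanceAs (Fintype (GI n ⊕ (GE n × In n K)))

/-- Vertices of the `K`-th slash power. -/
abbrev SV (n K : ℕ) : Type := Bool ⊕ In n K

variable {n : ℕ}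

/-- The gadget vertices inside the next slash power. -/
def emb (K : ℕ) : GV n → SV n (K + 1)
  | .inl x => .inl x
  | .inr i => .inr (.inl i)

/-- The copy of the `K`-th power on the edge `e`. -/
def cp {K : ℕ} (e : GE n) : SV n K → SV n (K + 1)
  | .inl false => emb K (tl e)
  | .inl true => emb K (hd e)
  | .inr x => .inr (.inr (e, x))

/-- Potential: distance from the first end, in units of the total length. -/
noncomputable def pot : (K : ℕ) → SV n K → ℝ
  | _, .inl false => 0
  | _, .inl true => 1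
  | 0, .inr x => Empty.elim x
  | K + 1, .inr (.inl i) => (rk (.inr i) : ℝ) / 3
  | K + 1, .inr (.inr (e, x)) => ((rk (tl e) : ℝ) + pot K (.inr x)) / 3

lemma pot_false (K : ℕ) : pot (n := n) K (.inl false) = 0 := by cases K <;> rfl

lemma pot_true (K : ℕ) : pot (n := n) K (.inl true) = 1 := by cases K <;> rfl

lemma pot_emb (K : ℕ) (v : GV n) : pot (K + 1) (emb K v) = (rk v : ℝ) / 3 := by
  rcases v with (_ | _) | i
  · simp [emb, pot_false, rk]
  · simp [emb, pot_true, rk]
  · rfl

lemma pot_cp {K : ℕ} (e : GE n) (x : SV n K) :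
    pot (K + 1) (cp e x) = ((rk (tl e) : ℝ) + pot K x) / 3 := by
  rcases x with (_ | _) | x
  · simp [cp, pot_emb, pot_false]
  · simp [cp, pot_emb, pot_true, rk_hd]
  · rfl

/-- Adjacency in the slash powers. -/
def SAdj : (K : ℕ) → SV n K → SV n K → Prop
  | 0 => fun x y => x ≠ y
  | K + 1 => fun x y => ∃ (e : GE n) (x' y' : SV n K), SAdj K x' y' ∧ cp e x' = x ∧ cp e y' = y

lemma sadj_symm : ∀ (K : ℕ) (x y : SV n K), SAdj K x y → SAdj K y x
  | 0, _, _, h => Ne.symm h
  | K + 1, _, _, ⟨e, x', y', h, hx, hy⟩ => ⟨e, y', x', sadj_symm K x' y' h, hy, hx⟩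

lemma sadj_pot : ∀ (K : ℕ) (x y : SV n K), SAdj K x y → pot K x ≠ pot K y
  | 0, .inl x, .inl y, h => by cases x <;> cases y <;> simp_all [SAdj, pot_false, pot_true]
  | 0, .inr x, _, _ => Empty.elim x
  | 0, _, .inr y, _ => Empty.elim y
  | K + 1, _, _, ⟨e, x', y', h, hx, hy⟩ => by
    subst hx; subst hy
    rw [pot_cp, pot_cp]
    intro h'
    exact sadj_pot K x' y' h (by linarith)

/-- The `K`-th slash power of the gadget. -/
def sG (n K : ℕ) : SimpleGraph (SV n K) where
  Adj := SAdj K
  symm := ⟨sadj_symm K⟩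
  loopless := ⟨fun x h => sadj_pot K x x h rfl⟩

/-- Edge lengths: differences of the potential. -/
noncomputable def slen (K : ℕ) : Sym2 (SV n K) → ℝ :=
  Sym2.lift ⟨fun x y => if pot K x = pot K y then 1 else |pot K x - pot K y|, fun x y => by
    dsimp only
    by_cases h : pot K x = pot K y
    · rw [if_pos h, if_pos h.symm]
    · rw [if_neg h, if_neg (Ne.symm h), abs_sub_comm]⟩

lemma slen_pos (K : ℕ) (e : Sym2 (SV n K)) : 0 < slen K e := by
  induction e using Sym2.ind with
  | _ x y =>
    simp only [slen, Sym2.lift_mk]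
    split_ifs with h
    · exact one_pos
    · exact abs_pos.mpr (sub_ne_zero.mpr h)

lemma slen_adj {K : ℕ} {x y : SV n K} (h : (sG n K).Adj x y) :
    slen K s(x, y) = |pot K x - pot K y| := by
  simp [slen, sadj_pot K x y h]

/-- Each copy is mapped into the next power. -/
def cpHom {K : ℕ} (e : GE n) : sG n K →g sG n (K + 1) where
  toFun := cp e
  map_rel' {x y} h := ⟨e, x, y, h, rfl, rfl⟩

lemma reach (hn : 0 < n) : ∀ (K : ℕ) (x : SV n K), (sG n K).Reachable (.inl false) x
  | 0, .inl false => SimpleGraph.Reachable.refl _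
  | 0, .inl true => SimpleGraph.Adj.reachable (show SAdj 0 _ _ from by simp [SAdj])
  | 0, .inr x => Empty.elim x
  | K + 1, x => by
    have hedge : ∀ e : GE n, (sG n (K + 1)).Reachable (emb K (tl e)) (emb K (hd e)) :=
      fun e => (reach hn K (.inl true)).map (cpHom e)
    have hs : ∀ v : GV n, (sG n (K + 1)).Reachable (.inl false) (emb K v) := by
      have hm : ∀ i : Fin n, (sG n (K + 1)).Reachable (.inl false) (emb K (.inr (.inr i))) :=
        fun i => by simpa [tl, hd, emb] using hedge (.inl (i, 0))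
      have ha : ∀ x : Bool, (sG n (K + 1)).Reachable (.inl false) (emb K (.inr (.inl x))) := by
        intro x
        refine (hm ⟨0, hn⟩).trans ?_
        cases x
        · simpa [tl, hd] using hedge (.inl (⟨0, hn⟩, 1))
        · simpa [tl, hd] using hedge (.inl (⟨0, hn⟩, 2))
      rintro ((_ | _) | (x | i))
      · exact SimpleGraph.Reachable.refl _
      · exact (ha false).trans (by simpa [tl, hd] using hedge (.inr false))
      · exact ha x
      · exact hm i
    rcases x with b | i | ⟨e, x⟩
    · exact hs (.inl b)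
    · exact hs (.inr i)
    · exact (hs (tl e)).trans ((reach hn K (.inr x)).map (cpHom e))

lemma reach' (hn : 0 < n) (K : ℕ) (x y : SV n K) : (sG n K).Reachable x y :=
  (reach hn K x).symm.trans (reach hn K y)

/-- A function that is Lipschitz on edges bounds the distance from below. -/
lemma abs_le_gdist (hn : 0 < n) {K : ℕ} (φ : SV n K → ℝ)
    (hφ : ∀ x y, SAdj K x y → |φ x - φ y| ≤ |pot K x - pot K y|) (x y : SV n K) :
    |φ x - φ y| ≤ gdist (sG n K) (slen K) x y := by
  refine le_gdist (reach' hn K x y) fun p => ?_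
  induction p with
  | nil => simp
  | @cons u v w h q ih =>
    rw [wlen_cons, slen_adj h]
    exact (abs_sub_le _ (φ v) _).trans (add_le_add (hφ u v h) (ih))

end Vale.Agent.P235.Slash
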