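import Vale.Agent.P235.Slash.Def

/-!
The dual inequality of the gadget, valid for all maps into `ℓ₁`.
-/

namespace Vale.Agent.P235.Slash

open Finset

/-- A linear combination of `|f u - f v|` that is nonnegative on cuts is nonnegative. -/
lemma nonneg_of_cuts {V κ : Type} [Fintype V] [Fintype κ] (c : κ → ℝ) (u v : κ → V)
    (h : ∀ S : V → Bool, 0 ≤ ∑ k, c k * |(if S (u k) then (1 : ℝ) else 0) - (if S (v k) then 1 else 0)|) :
    ∀ f : V → ℝ, 0 ≤ ∑ k, c k * |f (u k) - f (v k)| := by
  classical
  suffices H : ∀ (N : ℕ) (f : V → ℝ), (univ.image f).card ≤ N →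
      0 ≤ ∑ k, c k * |f (u k) - f (v k)| from fun f => H _ f le_rfl
  intro N
  induction N with
  | zero =>
    intro f hf
    have hV : IsEmpty V := ⟨fun x => by
      have : f x ∈ univ.image f := mem_image_of_mem f (mem_univ x)
      have h0 : univ.image f = ∅ := Finset.card_eq_zero.mp (by omega)
      rw [h0] at this
      simp at this⟩
    have : IsEmpty κ := ⟨fun k => hV.false (u k)⟩
    simp
  | succ N ih =>
    intro f hf
    rcases (univ.image f).eq_empty_or_nonempty with he | hne
    · exact ih f (by simp [he])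
    set top := (univ.image f).max' hne with htop
    rcases ((univ.image f).erase top).eq_empty_or_nonempty with he | hne'
    · have hall : ∀ x, f x = top := fun x => by
        by_contra hx
        have : f x ∈ (univ.image f).erase top := mem_erase.mpr ⟨hx, mem_image_of_mem f (mem_univ x)⟩
        rw [he] at this
        simp at this
      simp [hall]
    set m := ((univ.image f).erase top).max' hne' with hm
    have hm' : m ∈ (univ.image f).erase top := Finset.max'_mem _ hne'
    have hmt : m < top := lt_of_le_of_ne (Finset.le_max' _ _ (mem_of_mem_erase hm')) (ne_of_mem_erase hm')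
    have hle : ∀ x, f x = top ∨ f x ≤ m := fun x => by
      by_cases hx : f x = top
      · exact Or.inl hx
      · exact Or.inr (Finset.le_max' _ _ (mem_erase.mpr ⟨hx, mem_image_of_mem f (mem_univ x)⟩))
    set g : V → ℝ := fun x => min (f x) m with hg
    set S : V → Bool := fun x => decide (f x = top) with hS
    have hsplit : ∀ x y, |f x - f y| = |g x - g y|
        + (top - m) * |(if S x then (1 : ℝ) else 0) - (if S y then 1 else 0)| := by
      intro x y
      rcases hle x with hx | hx <;> rcases hle y with hy | hy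
      · simp [hg, hS, hx, hy]
      · have hyn : f y ≠ top := by intro e; linarith
        simp only [hg, hS, hx, decide_eq_true_eq, if_true, if_neg hyn, min_eq_right hmt.le,
          min_eq_left hy]
        rw [abs_of_nonneg (by linarith), abs_of_nonneg (by linarith)]
        simp
      · have hxn : f x ≠ top := by intro e; linarith
        simp only [hg, hS, hy, decide_eq_true_eq, if_true, if_neg hxn, min_eq_right hmt.le,
          min_eq_left hx]
        rw [abs_of_nonpos (by linarith), abs_of_nonpos (by linarith)]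
        simp
      · have hxn : f x ≠ top := by intro e; linarith
        have hyn : f y ≠ top := by intro e; linarith
        simp [hg, hS, hxn, hyn, min_eq_left hx, min_eq_left hy]
    have hgN : (univ.image g).card ≤ N := by
      have hsub : univ.image g ⊆ (univ.image f).erase top := by
        intro a ha
        obtain ⟨x, -, rfl⟩ := mem_image.mp ha
        rcases hle x with hx | hx
        · rw [show g x = m from by simp [hg, hx, hmt.le]]; exact hm'
        · rw [show g x = f x from by simp [hg, hx]]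
          exact mem_erase.mpr ⟨by intro e; linarith, mem_image_of_mem f (mem_univ x)⟩
      have := Finset.card_le_card hsub
      rw [Finset.card_erase_of_mem (Finset.max'_mem _ hne)] at this
      omega
    have h1 := ih g hgN
    have h2 := mul_nonneg (sub_nonneg.mpr hmt.le) (h S)
    rw [Finset.mul_sum] at h2
    calc (0 : ℝ) ≤ ∑ k, c k * |g (u k) - g (v k)| + ∑ k, (top - m) *
          (c k * |(if S (u k) then (1 : ℝ) else 0) - (if S (v k) then 1 else 0)|) := add_nonneg h1 h2
      _ = _ := by
        rw [← Finset.sum_add_distrib]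
        refine Finset.sum_congr rfl fun k _ => ?_
        rw [hsplit]; ring

variable {n : ℕ}

/-- `s`. -/
abbrev vs : GV n := .inl false
/-- `t`. -/
abbrev vt : GV n := .inl true
/-- `a`. -/
abbrev va : GV n := .inr (.inl false)
/-- `b`. -/
abbrev vb : GV n := .inr (.inl true)
/-- `m_i`. -/
abbrev vm (i : Fin n) : GV n := .inr (.inr i)

/-- The cut inequality, in terms of the fraction `u` of middle vertices in the cut. -/
lemma cut_ineq {q X M : ℝ} (hq : 0 ≤ q) (hX : X = (1 + q) ^ 2) (hM : M = X + q ^ 2) {u : ℝ}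
    (hu0 : 0 ≤ u) (hu1 : u ≤ 1) {s t a b : ℝ} (hs : s = 0 ∨ s = 1) (ht : t = 0 ∨ t = 1)
    (ha : a = 0 ∨ a = 1) (hb : b = 0 ∨ b = 1) :
    X * (u * (1 - u)) + q ^ 2 / 2 * |a - b| ≤ (1 + M) * (s + u - 2 * s * u)
      + (q ^ 2 + M) / 2 * ((a + u - 2 * a * u) + (b + u - 2 * b * u))
      + M / 2 * (|a - t| + |b - t|) - M * |s - t| := by
  have hX0 : 0 ≤ X := by rw [hX]; positivity
  have hM0 : 0 ≤ M := by rw [hM]; positivity
  have huu : 0 ≤ u * (1 - u) := mul_nonneg hu0 (by linarith)
  have key : X * (u * (1 - u)) ≤ u + q ^ 2 * (1 - u) := by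
    rw [hX]; nlinarith [sq_nonneg (u * (1 + q) - q)]
  have key' : X * (u * (1 - u)) ≤ (1 - u) + q ^ 2 * u := by
    rw [hX]; nlinarith [sq_nonneg ((1 - u) * (1 + q) - q)]
  have h1 : X * (u * (1 - u)) ≤ X * u :=
    mul_le_mul_of_nonneg_left (by nlinarith) hX0
  have h2 : X * (u * (1 - u)) ≤ X * (1 - u) :=
    mul_le_mul_of_nonneg_left (by nlinarith) hX0
  have h3 : 0 ≤ q ^ 2 * u := mul_nonneg (sq_nonneg q) hu0
  have h4 : 0 ≤ q ^ 2 * (1 - u) := mul_nonneg (sq_nonneg q) (by linarith)
  have h5 : 0 ≤ M * u := mul_nonneg hM0 hu0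
  have h6 : 0 ≤ M * (1 - u) := mul_nonneg hM0 (by linarith)
  subst hM
  rcases hs with rfl | rfl <;> rcases ht with rfl | rfl <;> rcases ha with rfl | rfl <;>
    rcases hb with rfl | rfl <;> norm_num <;> nlinarith [sq_nonneg q]

/-- The weights of the edges in the dual inequality. -/
noncomputable def wt (n : ℕ) (q M : ℝ) : GE n → ℝ
  | .inl (_, j) => if j = 0 then (1 + M) / n else (q ^ 2 + M) / (2 * n)
  | .inr _ => M / 2

lemma sum_GE {β : Type} [AddCommMonoid β] (F : GE n → β) :
    ∑ e, F e = ∑ i : Fin n, (F (.inl (i, 0)) + F (.inl (i, 1)) + F (.inl (i, 2)))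
      + (F (.inr true) + F (.inr false)) := by
  rw [Fintype.sum_sum_type, Fintype.sum_prod_type, Fintype.sum_bool]
  simp [Fin.sum_univ_three]

/-- The dual inequality for a real function on the gadget. -/
theorem gadget_real (hn : 0 < n) {q X M : ℝ} (hq : 0 ≤ q) (hX : X = (1 + q) ^ 2)
    (hM : M = X + q ^ 2) (f : GV n → ℝ) :
    X / (2 * (n : ℝ) ^ 2) * ∑ p : Fin n × Fin n, |f (vm p.1) - f (vm p.2)|
      + q ^ 2 / 2 * |f va - f vb|
      ≤ ∑ e, wt n q M e * |f (tl e) - f (hd e)| - M * |f vs - f vt| := by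
  classical
  have hn' : (0 : ℝ) < n := Nat.cast_pos.mpr hn
  let c : (Fin n × Fin n) ⊕ (GE n ⊕ Bool) → ℝ
    | .inl _ => -(X / (2 * (n : ℝ) ^ 2))
    | .inr (.inl e) => wt n q M e
    | .inr (.inr true) => -(q ^ 2 / 2)
    | .inr (.inr false) => -M
  let u : (Fin n × Fin n) ⊕ (GE n ⊕ Bool) → GV n
    | .inl p => vm p.1
    | .inr (.inl e) => tl e
    | .inr (.inr true) => va
    | .inr (.inr false) => vs
  let v : (Fin n × Fin n) ⊕ (GE n ⊕ Bool) → GV n
    | .inl p => vm p.2
    | .inr (.inl e) => hd e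
    | .inr (.inr true) => vb
    | .inr (.inr false) => vt
  have expand : ∀ g : GV n → ℝ, ∑ k, c k * |g (u k) - g (v k)| =
      ∑ e, wt n q M e * |g (tl e) - g (hd e)| - M * |g vs - g vt|
      - X / (2 * (n : ℝ) ^ 2) * ∑ p : Fin n × Fin n, |g (vm p.1) - g (vm p.2)|
      - q ^ 2 / 2 * |g va - g vb| := by
    intro g
    rw [Fintype.sum_sum_type, Fintype.sum_sum_type, Fintype.sum_bool]
    simp only [c, u, v, Finset.mul_sum, neg_mul, Finset.sum_neg_distrib]
    ring
  have main := nonneg_of_cuts c u v ?_ f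
  · rw [expand] at main; linarith
  intro S
  set g : GV n → ℝ := fun x => if S x then (1 : ℝ) else 0 with hgdef
  have h01 : ∀ x, g x = 0 ∨ g x = 1 := fun x => by by_cases h : S x <;> simp [hgdef, h]
  show 0 ≤ ∑ k, c k * |g (u k) - g (v k)|
  rw [expand]
  have habs : ∀ x y, |g x - g y| = g x + g y - 2 * g x * g y := fun x y => by
    rcases h01 x with h | h <;> rcases h01 y with h' | h' <;> norm_num [h, h']
  set U := ∑ i, g (vm i) with hU
  have hU0 : 0 ≤ U := Finset.sum_nonneg fun i _ => by rcases h01 (vm i) with h | h <;> simp [h]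
  have hU1 : U ≤ n :=
    (Finset.sum_le_sum fun i _ => show g (vm i) ≤ 1 by rcases h01 (vm i) with h | h <;> simp [h]).trans
      (by simp)
  have hlin : ∀ x : GV n, ∑ i, |g x - g (vm i)| = n * g x + U - 2 * g x * U := fun x => by
    simp only [habs, Finset.sum_sub_distrib, Finset.sum_add_distrib, ← Finset.mul_sum, Finset.sum_const,
      Finset.card_univ, Fintype.card_fin, nsmul_eq_mul, hU]
  have hpair : ∑ p : Fin n × Fin n, |g (vm p.1) - g (vm p.2)| = 2 * (n * U - U * U) := by
    rw [Fintype.sum_prod_type]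
    simp only [hlin, Finset.sum_sub_distrib, Finset.sum_add_distrib, ← Finset.mul_sum, ← Finset.sum_mul,
      Finset.sum_const, Finset.card_univ, Fintype.card_fin, nsmul_eq_mul, ← hU]
    ring
  have hedge : ∑ e, wt n q M e * |g (tl e) - g (hd e)| =
      (1 + M) / n * (n * g vs + U - 2 * g vs * U)
      + (q ^ 2 + M) / (2 * n) * ((n * g va + U - 2 * g va * U) + (n * g vb + U - 2 * g vb * U))
      + M / 2 * (|g va - g vt| + |g vb - g vt|) := by
    rw [sum_GE, ← hlin vs, ← hlin va, ← hlin vb]
    simp only [wt, tl, hd, reduceIte, show (1 : Fin 3) ≠ 0 from by decide,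
      show (2 : Fin 3) ≠ 0 from by decide, show (2 : Fin 3) ≠ 1 from by decide,
      Finset.sum_add_distrib, ← Finset.mul_sum]
    rw [show ∑ i, |g (vm i) - g va| = ∑ i, |g va - g (vm i)| from
        Finset.sum_congr rfl fun i _ => abs_sub_comm _ _,
      show ∑ i, |g (vm i) - g vb| = ∑ i, |g vb - g (vm i)| from
        Finset.sum_congr rfl fun i _ => abs_sub_comm _ _]
    ring
  have := cut_ineq hq hX hM (u := U / n) (by positivity) ((div_le_one hn').mpr hU1)
    (h01 vs) (h01 vt) (h01 va) (h01 vb)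
  rw [hpair, hedge]
  have e0 : X / (2 * (n : ℝ) ^ 2) * (2 * (n * U - U * U)) = X * (U / n * (1 - U / n)) := by
    field_simp
  have e1 : (1 + M) / n * (n * g vs + U - 2 * g vs * U) =
      (1 + M) * (g vs + U / n - 2 * g vs * (U / n)) := by field_simp
  have e2 : (q ^ 2 + M) / (2 * n) * ((n * g va + U - 2 * g va * U) + (n * g vb + U - 2 * g vb * U)) =
      (q ^ 2 + M) / 2 * ((g va + U / n - 2 * g va * (U / n)) + (g vb + U / n - 2 * g vb * (U / n))) := by
    field_simp
  rw [e0, e1, e2]
  linarith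

/-- The dual inequality for a map of the gadget into `ℓ₁`. -/
theorem gadget_dist (hn : 0 < n) {q X M : ℝ} (hq : 0 ≤ q) (hX : X = (1 + q) ^ 2)
    (hM : M = X + q ^ 2) {N : ℕ} (f : GV n → Fin N → ℝ) :
    X / (2 * (n : ℝ) ^ 2) * ∑ p : Fin n × Fin n, dist1 (f (vm p.1)) (f (vm p.2))
      + q ^ 2 / 2 * dist1 (f va) (f vb)
      ≤ ∑ e, wt n q M e * dist1 (f (tl e)) (f (hd e)) - M * dist1 (f vs) (f vt) := by
  have := Finset.sum_le_sum (s := (univ : Finset (Fin N)))
    fun k _ => gadget_real hn hq hX hM fun x => f x k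
  simp only [Finset.sum_add_distrib, Finset.sum_sub_distrib, ← Finset.mul_sum] at this
  have e1 : ∑ p : Fin n × Fin n, dist1 (f (vm p.1)) (f (vm p.2)) =
      ∑ k, ∑ p : Fin n × Fin n, |f (vm p.1) k - f (vm p.2) k| := Finset.sum_comm
  have e2 : ∑ e, wt n q M e * dist1 (f (tl e)) (f (hd e)) =
      ∑ k, ∑ e, wt n q M e * |f (tl e) k - f (hd e) k| := by
    simp only [dist1, Finset.mul_sum]; exact Finset.sum_comm
  rw [e1, e2]
  exact this

end Vale.Agent.P235.Slash
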