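import Vale.Agent.P235.Slash.Def

/-!
The slash powers have treewidth at most three.
-/

namespace Vale.Agent.P235.Slash

open Finset

/-- `G` has a tree decomposition of width at most `k`. -/
def TreewidthLE {V : Type} (G : SimpleGraph V) (k : ℕ) : Prop :=
  ∃ (N : Type) (_ : Fintype N) (T : SimpleGraph N) (bag : N → Finset V),
    T.IsTree ∧ (∀ t, (bag t).card ≤ k + 1) ∧ (∀ x y, G.Adj x y → ∃ t, x ∈ bag t ∧ y ∈ bag t) ∧
    ∀ v, (T.induce {t | v ∈ bag t}).Connected

section rooted

variable {N : Type} (par : N → N) (dep : N → ℕ) (root : N)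

/-- The tree of a parent map. -/
def parGraph : SimpleGraph N := SimpleGraph.fromRel fun x y => par x = y

lemma parGraph_isTree (hd : ∀ x, x ≠ root → dep (par x) < dep x) (hr : par root = root) :
    (parGraph par).IsTree := by
  classical
  have hadj : ∀ x y, (parGraph par).Adj x y ↔ x ≠ y ∧ (par x = y ∨ par y = x) :=
    fun x y => SimpleGraph.fromRel_adj _ x y
  have hup : ∀ x, (parGraph par).Reachable x root := by
    intro x
    induction h : dep x using Nat.strong_induction_on generalizing x with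
    | _ d ih =>
      by_cases hx : x = root
      · subst hx; rfl
      · have hlt := hd x hx
        refine SimpleGraph.Reachable.trans (SimpleGraph.Adj.reachable ((hadj _ _).mpr ⟨?_, Or.inl rfl⟩))
          (ih _ (h ▸ hlt) _ rfl)
        intro e; rw [← e] at hlt; exact lt_irrefl _ hlt
  haveI : Nonempty N := ⟨root⟩
  refine ⟨⟨fun x y => (hup x).trans (hup y).symm⟩, fun x p hp => ?_⟩
  obtain ⟨w, hw, hmax⟩ := p.support.toFinset.exists_max_image dep
    ⟨x, List.mem_toFinset.mpr p.start_mem_support⟩
  rw [List.mem_toFinset] at hw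
  have hc := hp.rotate hw
  set c := p.rotate w hw with hcdef
  have hle : ∀ z ∈ c.support, dep z ≤ dep w := fun z hz => hmax z (List.mem_toFinset.mpr
    ((SimpleGraph.Walk.mem_support_rotate_iff p w hw).mp hz))
  have key : ∀ z, (parGraph par).Adj w z → dep z ≤ dep w → z = par w := by
    intro z hz hzw
    obtain ⟨hne, h | h⟩ := (hadj _ _).mp hz
    · exact h.symm
    · exfalso
      by_cases hzr : z = root
      · subst hzr; rw [hr] at h; exact hne h.symm
      · have := hd z hzr; rw [h] at this; omega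
  have h1 := key _ (c.adj_snd hc.not_nil) (hle _ (SimpleGraph.Walk.getVert_mem_support _ _))
  have h2 := key _ (c.adj_penultimate hc.not_nil).symm
    (hle _ (SimpleGraph.Walk.getVert_mem_support _ _))
  exact hc.snd_ne_penultimate (h1.trans h2.symm)

lemma induce_connected (hd : ∀ x, x ≠ root → dep (par x) < dep x)
    {P : Set N} {top : N} (htop : top ∈ P)
    (h : ∀ x ∈ P, x ≠ top → x ≠ root ∧ par x ∈ P) :
    ((parGraph par).induce P).Connected := by
  have hup : ∀ (x : N) (hx : x ∈ P), ((parGraph par).induce P).Reachable ⟨x, hx⟩ ⟨top, htop⟩ := by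
    intro x
    induction hd' : dep x using Nat.strong_induction_on generalizing x with
    | _ d ih =>
      intro hx
      by_cases hxt : x = top
      · subst hxt; rfl
      · obtain ⟨hne, hp⟩ := h x hx hxt
        have hlt := hd x hne
        refine SimpleGraph.Reachable.trans (SimpleGraph.Adj.reachable ?_) (ih _ (hd' ▸ hlt) _ rfl hp)
        show (parGraph par).Adj x (par x)
        refine (SimpleGraph.fromRel_adj (fun a b => par a = b) x (par x)).mpr ⟨?_, Or.inl rfl⟩
        intro e
        rw [← e] at hlt; exact lt_irrefl _ hlt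
  haveI : Nonempty P := ⟨⟨top, htop⟩⟩
  exact ⟨fun a b => (hup a.1 a.2).trans (hup b.1 b.2).symm⟩

end rooted

variable {n : ℕ}

noncomputable instance instDecEqIn (n K : ℕ) : DecidableEq (In n K) := Classical.decEq _

/-- Nodes of the tree decomposition. -/
def Nd (n : ℕ) : ℕ → Type
  | 0 => Unit
  | K + 1 => Option (Fin n) ⊕ (GE n × Nd n K)

instance instFintypeNd (n : ℕ) : (K : ℕ) → Fintype (Nd n K)
  | 0 => inferInstanceAs (Fintype Unit)
  | K + 1 =>
    letI := instFintypeNd n K
    inferInstanceAs (Fintype (Option (Fin n) ⊕ (GE n × Nd n K)))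

noncomputable instance instDecEqNd (n K : ℕ) : DecidableEq (Nd n K) := Classical.decEq _

/-- The root. -/
def ndRoot : (K : ℕ) → Nd n K
  | 0 => ()
  | _ + 1 => .inl none

/-- The node of the gadget's own decomposition whose bag holds the edge `e`. -/
def host : GE n → Option (Fin n)
  | .inl (i, _) => some i
  | .inr _ => none

/-- The parent map. -/
noncomputable def ndPar : (K : ℕ) → Nd n K → Nd n K
  | 0, _ => ()
  | _ + 1, .inl _ => .inl none
  | K + 1, .inr (e, x) =>
    if x = ndRoot K then .inl (host e) else .inr (e, ndPar K x)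

/-- The depth. -/
def ndDep : (K : ℕ) → Nd n K → ℕ
  | 0, _ => 0
  | _ + 1, .inl none => 0
  | _ + 1, .inl (some _) => 1
  | K + 1, .inr (_, x) => 2 + ndDep K x

/-- The gadget's bags: `{s, t, a, b}` and `{s, a, b, m_i}`. -/
def gBag : Option (Fin n) → Finset (GV n)
  | none => {.inl false, .inl true, .inr (.inl false), .inr (.inl true)}
  | some i => {.inl false, .inr (.inr i), .inr (.inl false), .inr (.inl true)}

/-- The bags. -/
noncomputable def ndBag : (K : ℕ) → Nd n K → Finset (SV n K)
  | 0, _ => {.inl false, .inl true}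
  | K + 1, .inl o => (gBag o).image (emb K)
  | K + 1, .inr (e, x) => (ndBag K x).image (cp e)

/-- The topmost node of a vertex. -/
noncomputable def ndTop : (K : ℕ) → SV n K → Nd n K
  | K, .inl _ => ndRoot K
  | 0, .inr x => Empty.elim x
  | _ + 1, .inr (.inl (.inl _)) => .inl none
  | _ + 1, .inr (.inl (.inr i)) => .inl (some i)
  | K + 1, .inr (.inr (e, x)) => .inr (e, ndTop K (.inr x))

lemma ndPar_root : ∀ K, ndPar K (ndRoot (n := n) K) = ndRoot K
  | 0 => rfl
  | _ + 1 => rfl

lemma ndPar_inr_root (K : ℕ) (e : GE n) :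
    ndPar (K + 1) (.inr (e, ndRoot K)) = .inl (host e) := by
  exact if_pos rfl

lemma ndPar_inr_ne (K : ℕ) (e : GE n) {x : Nd n K} (h : x ≠ ndRoot K) :
    ndPar (K + 1) (.inr (e, x)) = .inr (e, ndPar K x) := by
  exact if_neg h

lemma ndDep_par : ∀ (K : ℕ) (x : Nd n K), x ≠ ndRoot K → ndDep K (ndPar K x) < ndDep K x
  | 0, _, h => absurd rfl h
  | _ + 1, .inl none, h => absurd rfl h
  | _ + 1, .inl (some _), _ => Nat.zero_lt_one
  | K + 1, .inr (e, x), _ => by
    by_cases h : x = ndRoot K
    · subst h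
      rw [ndPar_inr_root]
      rcases e with ⟨i, j⟩ | z <;> simp only [host, ndDep] <;> omega
    · have := ndDep_par K x h
      rw [ndPar_inr_ne K e h]
      simp only [ndDep]; omega

lemma ends_host (e : GE n) : tl e ∈ gBag (host e) ∧ hd e ∈ gBag (host e) := by
  rcases e with ⟨i, j⟩ | x
  · fin_cases j <;> simp [tl, hd, host, gBag]
  · cases x <;> simp [tl, hd, host, gBag]

lemma term_mem_root : ∀ (K : ℕ) (b : Bool), (.inl b : SV n K) ∈ ndBag K (ndRoot K)
  | 0, b => by cases b <;> simp [ndBag, ndRoot]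
  | K + 1, b => by
    classical
    simp only [ndRoot, ndBag, Finset.mem_image]
    exact ⟨.inl b, by cases b <;> simp [gBag], rfl⟩

lemma top_mem : ∀ (K : ℕ) (v : SV n K), v ∈ ndBag K (ndTop K v)
  | K, .inl b => by cases K <;> simp only [ndTop] <;> exact term_mem_root _ b
  | 0, .inr x => Empty.elim x
  | K + 1, .inr (.inl (.inl b)) => by
    classical
    simp only [ndTop, ndBag, Finset.mem_image]
    exact ⟨.inr (.inl b), by cases b <;> simp [gBag], rfl⟩
  | K + 1, .inr (.inl (.inr i)) => by
    classical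
    simp only [ndTop, ndBag, Finset.mem_image]
    exact ⟨.inr (.inr i), by simp [gBag], rfl⟩
  | K + 1, .inr (.inr (e, x)) => by
    classical
    simp only [ndTop, ndBag, Finset.mem_image]
    exact ⟨.inr x, top_mem K (.inr x), rfl⟩

lemma gadget_top {o : Option (Fin n)} {v : GV n} (hv : v ∈ gBag o) :
    (o = none ∧ (v = .inl false ∨ v = .inl true ∨ ∃ b, v = .inr (.inl b))) ∨
    (∃ i, o = some i ∧ v = .inr (.inr i)) ∨
    (∃ i, o = some i ∧ v ∈ gBag none) := by
  cases o with
  | none =>
    left; refine ⟨rfl, ?_⟩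
    simp [gBag] at hv
    rcases hv with h | h | h | h <;> simp [h]
  | some i =>
    right
    simp [gBag] at hv
    rcases hv with h | h | h | h
    · exact Or.inr ⟨i, rfl, by simp [h, gBag]⟩
    · exact Or.inl ⟨i, rfl, h⟩
    · exact Or.inr ⟨i, rfl, by simp [h, gBag]⟩
    · exact Or.inr ⟨i, rfl, by simp [h, gBag]⟩

lemma top_emb (K : ℕ) {v : GV n} (hv : v ∈ gBag none) :
    ndTop (K + 1) (emb K v) = .inl none := by
  simp [gBag] at hv
  rcases hv with h | h | h | h <;> subst h <;> rfl

lemma up : ∀ (K : ℕ) (v : SV n K) (x : Nd n K), v ∈ ndBag K x → x ≠ ndTop K v →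
    x ≠ ndRoot K ∧ v ∈ ndBag K (ndPar K x)
  | 0, .inl _, _, _, h => absurd rfl h
  | 0, .inr z, _, _, _ => Empty.elim z
  | K + 1, v, .inl o, hv, hne => by
    classical
    simp only [ndBag, Finset.mem_image] at hv
    obtain ⟨w, hw, rfl⟩ := hv
    rcases gadget_top hw with ⟨rfl, h⟩ | ⟨i, rfl, rfl⟩ | ⟨i, rfl, h⟩
    · exact absurd (top_emb K hw).symm hne
    · exact absurd rfl hne
    · refine ⟨(by intro h; cases h), ?_⟩
      simp only [ndPar, ndBag, Finset.mem_image]
      exact ⟨w, h, rfl⟩
  | K + 1, v, .inr (e, x), hv, hne => by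
    classical
    simp only [ndBag, Finset.mem_image] at hv
    obtain ⟨z, hz, hzv⟩ := hv
    refine ⟨(by intro h; cases h), ?_⟩
    have hends := ends_host e
    by_cases hx : x = ndRoot K
    · rw [hx, ndPar_inr_root]
      simp only [ndBag, Finset.mem_image]
      rcases z with (_ | _) | y
      · exact ⟨tl e, hends.1, hzv⟩
      · exact ⟨hd e, hends.2, hzv⟩
      · exfalso
        subst hzv
        have hne' : x ≠ ndTop K (.inr y) := fun h => hne (by rw [h]; rfl)
        exact (up K (.inr y) x hz hne').1 hx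
    · rw [ndPar_inr_ne K e hx]
      simp only [ndBag, Finset.mem_image]
      rcases z with b | y
      · exact ⟨.inl b, (up K (.inl b) x hz (by cases K <;> simpa [ndTop] using hx)).2, hzv⟩
      · subst hzv
        have hne' : x ≠ ndTop K (.inr y) := fun h => hne (by rw [h]; rfl)
        exact ⟨.inr y, (up K (.inr y) x hz hne').2, rfl⟩

lemma edge_bag : ∀ (K : ℕ) (x y : SV n K), SAdj K x y → ∃ t, x ∈ ndBag K t ∧ y ∈ ndBag K t
  | 0, .inl x, .inl y, _ => ⟨(), by cases x <;> simp [ndBag], by cases y <;> simp [ndBag]⟩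
  | 0, .inr x, _, _ => Empty.elim x
  | 0, _, .inr y, _ => Empty.elim y
  | K + 1, _, _, ⟨e, x', y', h, hx, hy⟩ => by
    classical
    obtain ⟨t, h1, h2⟩ := edge_bag K x' y' h
    refine ⟨.inr (e, t), ?_, ?_⟩ <;> simp only [ndBag, Finset.mem_image]
    · exact ⟨x', h1, hx⟩
    · exact ⟨y', h2, hy⟩

lemma card_bag : ∀ (K : ℕ) (t : Nd n K), (ndBag K t).card ≤ 3 + 1
  | 0, _ => by classical exact Finset.card_le_two.trans (by norm_num)
  | K + 1, .inl o => by
    classical
    refine Finset.card_image_le.trans ?_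
    cases o <;> exact Finset.card_le_four
  | K + 1, .inr (e, x) => by
    classical
    exact Finset.card_image_le.trans (card_bag K x)

theorem treewidth_sG (n K : ℕ) : TreewidthLE (sG n K) 3 := by
  refine ⟨Nd n K, inferInstance, parGraph (ndPar K), ndBag K,
    parGraph_isTree _ (ndDep K) (ndRoot K) (ndDep_par K) (ndPar_root K), card_bag K, edge_bag K,
    fun v => ?_⟩
  exact induce_connected (ndPar K) (ndDep K) (ndRoot K) (ndDep_par K)
    (P := {t | v ∈ ndBag K t}) (top_mem K v) (fun x hx hne => up K v x hx hne)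

end Vale.Agent.P235.Slash
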