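import Vale.Agent.P235.Slash.Ineq
import Vale.Agent.P235.Slash.Width

/-!
The distortion of the slash powers tends to at least `(3 + √5)/2`.
-/

namespace Vale.Agent.P235.Slash

open Finset

variable {n : ℕ}

/-- Averaging weights of the edges. -/
noncomputable def pr (n : ℕ) : GE n → ℝ
  | .inl (_, j) => if j = 0 then 1 / (3 * n) else 1 / (6 * n)
  | .inr _ => 1 / 6

lemma sum_pr (hn : 0 < n) : ∑ e : GE n, pr n e = 1 := by
  have : (n : ℝ) ≠ 0 := Nat.cast_ne_zero.mpr hn.ne'
  rw [sum_GE]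
  simp [pr]
  field_simp
  ring

lemma sum_wt (hn : 0 < n) (q M : ℝ) : ∑ e : GE n, wt n q M e = 1 + q ^ 2 + 3 * M := by
  have : (n : ℝ) ≠ 0 := Nat.cast_ne_zero.mpr hn.ne'
  rw [sum_GE]
  simp [wt]
  field_simp
  ring

lemma dist1_scale {N : ℕ} (u v : Fin N → ℝ) :
    dist1 (fun i => 3 * u i) (fun i => 3 * v i) = 3 * dist1 u v := by
  simp [dist1, Finset.mul_sum, ← mul_sub, abs_mul]

lemma dist1_triangle {N : ℕ} (u v w : Fin N → ℝ) : dist1 u w ≤ dist1 u v + dist1 v w := by
  simp only [dist1, ← Finset.sum_add_distrib]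
  exact Finset.sum_le_sum fun i _ => abs_sub_le _ _ _

lemma dist1_nn {N : ℕ} (u v : Fin N → ℝ) : 0 ≤ dist1 u v :=
  Finset.sum_nonneg fun i _ => abs_nonneg _

/-- `F` expands every test function that is equal at the two ends. -/
def Expand (n K N : ℕ) (F : SV n K → Fin N → ℝ) : Prop :=
  ∀ φ : SV n K → ℝ, (∀ x y, SAdj K x y → |φ x - φ y| ≤ |pot K x - pot K y|) →
    φ (.inl false) = φ (.inl true) → ∀ x y, |φ x - φ y| ≤ dist1 (F x) (F y)

lemma expand_child {K N : ℕ} {F : SV n (K + 1) → Fin N → ℝ} (hF : Expand n (K + 1) N F) (e : GE n) :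
    Expand n K N (fun x i => 3 * F (cp e x) i) := by
  classical
  intro φ hφ hends x y
  set k := φ (.inl false) with hk
  set ψ : SV n (K + 1) → ℝ := fun z => match z with
    | .inl _ => k / 3
    | .inr (.inl _) => k / 3
    | .inr (.inr (e', w)) => if e' = e then φ (.inr w) / 3 else k / 3 with hψ
  have hemb : ∀ v, ψ (emb K v) = k / 3 := by rintro (b | i) <;> rfl
  have hcp : ∀ (e' : GE n) (z : SV n K),
      ψ (cp e' z) = if e' = e then φ z / 3 else k / 3 := by
    rintro e' ((_ | _) | w)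
    · show ψ (emb K _) = _
      rw [hemb]; split_ifs <;> rfl
    · show ψ (emb K _) = _
      rw [hemb, ← hends]; split_ifs <;> rfl
    · rfl
  have hlip : ∀ a b, SAdj (K + 1) a b → |ψ a - ψ b| ≤ |pot (K + 1) a - pot (K + 1) b| := by
    rintro a b ⟨e', a', b', h, rfl, rfl⟩
    rw [hcp, hcp, pot_cp, pot_cp, ← sub_div, add_sub_add_left_eq_sub, abs_div]
    split_ifs
    · rw [← sub_div, abs_div]
      exact div_le_div_of_nonneg_right (hφ a' b' h) (abs_nonneg _)
    · simp; positivity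
  have h := hF ψ hlip rfl (cp e x) (cp e y)
  rw [hcp, hcp, if_pos rfl, if_pos rfl, ← sub_div, abs_div, abs_of_pos (by norm_num : (0 : ℝ) < 3)] at h
  rw [dist1_scale]
  linarith

lemma expand_gadget {K N : ℕ} {F : SV n (K + 1) → Fin N → ℝ} (hF : Expand n (K + 1) N F)
    (ψ : GV n → ℝ) (h1 : ∀ e, |ψ (tl e) - ψ (hd e)| ≤ 1) (h2 : ψ (.inl false) = ψ (.inl true))
    (u v : GV n) : |ψ u - ψ v| ≤ 3 * dist1 (F (emb K u)) (F (emb K v)) := by
  set φ : SV n (K + 1) → ℝ := fun z => match z with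
    | .inl b => ψ (.inl b) / 3
    | .inr (.inl i) => ψ (.inr i) / 3
    | .inr (.inr (e, w)) => (ψ (tl e) + (ψ (hd e) - ψ (tl e)) * pot K (.inr w)) / 3 with hφ
  have hemb : ∀ w, φ (emb K w) = ψ w / 3 := by rintro (b | i) <;> rfl
  have hcp : ∀ (e : GE n) (z : SV n K),
      φ (cp e z) = (ψ (tl e) + (ψ (hd e) - ψ (tl e)) * pot K z) / 3 := by
    rintro e ((_ | _) | w)
    · show φ (emb K _) = _
      rw [hemb, pot_false]; ring
    · show φ (emb K _) = _
      rw [hemb, pot_true]; ring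
    · rfl
  have hlip : ∀ a b, SAdj (K + 1) a b → |φ a - φ b| ≤ |pot (K + 1) a - pot (K + 1) b| := by
    rintro a b ⟨e, a', b', -, rfl, rfl⟩
    rw [hcp, hcp, pot_cp, pot_cp, ← sub_div, ← sub_div, add_sub_add_left_eq_sub,
      add_sub_add_left_eq_sub, ← mul_sub, abs_div, abs_div, abs_mul]
    gcongr
    exact mul_le_of_le_one_left (abs_nonneg _) (by rw [abs_sub_comm]; exact h1 e)
  have h := hF φ hlip (by show ψ _ / 3 = ψ _ / 3; rw [h2]) (emb K u) (emb K v)
  rw [hemb, hemb, ← sub_div, abs_div, abs_of_pos (by norm_num : (0 : ℝ) < 3)] at h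
  linarith

/-- One level of the slash power. -/
theorem level (hn : 0 < n) {q X M C : ℝ} (hq : 0 ≤ q) (hX : X = (1 + q) ^ 2) (hM : M = X + q ^ 2)
    (hη : 0 ≤ X * (1 - 1 / n) + q ^ 2 - (1 + q ^ 2) * C) {N : ℕ} (g : GV n → Fin N → ℝ)
    (hm : ∀ i j, i ≠ j → 2 ≤ dist1 (g (vm i)) (g (vm j))) (hab : 2 ≤ dist1 (g va) (g vb))
    (hC : dist1 (g vs) (g vt) ≤ 3 * C) :
    (dist1 (g vs) (g vt) / 3) ^ 2
      + ((X * (1 - 1 / n) + q ^ 2 - (1 + q ^ 2) * C) / (3 * (1 + M + q ^ 2))) ^ 2
      ≤ ∑ e, pr n e * dist1 (g (tl e)) (g (hd e)) ^ 2 := by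
  have hn' : (0 : ℝ) < n := Nat.cast_pos.mpr hn
  set R := dist1 (g vs) (g vt) / 3 with hR
  set r : GE n → ℝ := fun e => dist1 (g (tl e)) (g (hd e)) with hr
  have hR0 : 0 ≤ R := div_nonneg (dist1_nn _ _) (by norm_num)
  have hX0 : 0 ≤ X := by rw [hX]; positivity
  have hM0 : 0 ≤ M := by rw [hM]; positivity
  have hB : 0 < 3 * (1 + M + q ^ 2) := by positivity
  -- the paths
  have hpath : R ≤ ∑ e, pr n e * r e := by
    have hP : ∀ i, 6 * R ≤ 2 * r (.inl (i, 0)) + r (.inl (i, 1)) + r (.inl (i, 2))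
        + r (.inr false) + r (.inr true) := by
      intro i
      have a1 := dist1_triangle (g vs) (g (vm i)) (g vt)
      have a2 := dist1_triangle (g (vm i)) (g va) (g vt)
      have a3 := dist1_triangle (g (vm i)) (g vb) (g vt)
      simp only [hr, hR, tl, hd, reduceIte, show (1 : Fin 3) ≠ 0 from by decide,
        show (2 : Fin 3) ≠ 0 from by decide, show (2 : Fin 3) ≠ 1 from by decide]
      linarith
    have hsum := Finset.sum_le_sum (s := (univ : Finset (Fin n))) fun i _ => hP i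
    simp only [Finset.sum_add_distrib, ← Finset.mul_sum, Finset.sum_const, Finset.card_univ,
      Fintype.card_fin, nsmul_eq_mul] at hsum
    rw [sum_GE]
    simp only [pr, reduceIte, show (1 : Fin 3) ≠ 0 from by decide, show (2 : Fin 3) ≠ 0 from by decide,
      Finset.sum_add_distrib, ← Finset.mul_sum]
    rw [← mul_le_mul_iff_right₀ (show (0 : ℝ) < 6 * n by positivity)]
    field_simp
    linarith
  -- the dual inequality
  have hdual := gadget_dist hn hq hX hM g
  have hpairs : (2 : ℝ) * ((n : ℝ) ^ 2 - n) ≤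
      ∑ p : Fin n × Fin n, dist1 (g (vm p.1)) (g (vm p.2)) := by
    calc (2 : ℝ) * ((n : ℝ) ^ 2 - n) = ∑ p : Fin n × Fin n, (2 - if p.1 = p.2 then (2 : ℝ) else 0) := by
          rw [Finset.sum_sub_distrib, Fintype.sum_prod_type, Fintype.sum_prod_type]
          simp; ring
      _ ≤ _ := Finset.sum_le_sum fun p _ => by
          split_ifs with h
          · simpa using dist1_nn _ _
          · simpa using hm _ _ h
  have hlow : X * (1 - 1 / n) + q ^ 2 ≤
      X / (2 * (n : ℝ) ^ 2) * ∑ p : Fin n × Fin n, dist1 (g (vm p.1)) (g (vm p.2))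
        + q ^ 2 / 2 * dist1 (g va) (g vb) := by
    refine add_le_add ?_ ?_
    · refine le_trans (le_of_eq ?_) (mul_le_mul_of_nonneg_left hpairs (by positivity))
      field_simp
    · nlinarith [sq_nonneg q]
  -- excess over the average
  have hη' : X * (1 - 1 / n) + q ^ 2 - (1 + q ^ 2) * C ≤ ∑ e, wt n q M e * (r e - R) := by
    have : ∑ e, wt n q M e * (r e - R) = ∑ e, wt n q M e * r e - (1 + q ^ 2 + 3 * M) * R := by
      simp only [mul_sub, Finset.sum_sub_distrib, ← Finset.sum_mul, sum_wt hn]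
    rw [this]
    have e3 : M * dist1 (g vs) (g vt) = 3 * M * R := by rw [hR]; ring
    have e4 : (1 + q ^ 2) * R ≤ (1 + q ^ 2) * C :=
      mul_le_mul_of_nonneg_left (by rw [hR]; linarith) (by positivity)
    simp only [hr]
    linarith
  have hwt : ∑ e, wt n q M e * (r e - R) ≤ 3 * (1 + M + q ^ 2) * ∑ e, pr n e * |r e - R| := by
    rw [Finset.mul_sum]
    refine Finset.sum_le_sum fun e _ => ?_
    rw [← mul_assoc]
    have hnonneg : 0 ≤ wt n q M e ∧ wt n q M e ≤ 3 * (1 + M + q ^ 2) * pr n e := by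
      rcases e with ⟨i, j⟩ | x
      · simp only [wt, pr]
        split_ifs
        · refine ⟨by positivity, ?_⟩
          rw [div_le_iff₀ hn']; field_simp; nlinarith [sq_nonneg q]
        · refine ⟨by positivity, ?_⟩
          rw [div_le_iff₀ (by positivity)]; field_simp; nlinarith [sq_nonneg q]
      · refine ⟨by simp only [wt]; positivity, ?_⟩
        simp only [wt, pr]; nlinarith [sq_nonneg q]
    exact (mul_le_mul_of_nonneg_left (le_abs_self _) hnonneg.1).trans
      (mul_le_mul_of_nonneg_right hnonneg.2 (abs_nonneg _))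
  set μ := ∑ e, pr n e * |r e - R| with hμ
  have hμ1 : (X * (1 - 1 / n) + q ^ 2 - (1 + q ^ 2) * C) / (3 * (1 + M + q ^ 2)) ≤ μ := by
    rw [div_le_iff₀ hB]; linarith
  have hpr0 : ∀ e, 0 ≤ pr n e := fun e => by
    rcases e with ⟨i, j⟩ | x <;> simp only [pr]
    · split_ifs <;> positivity
    · norm_num
  have hvar : μ ^ 2 ≤ ∑ e, pr n e * (r e - R) ^ 2 := by
    have h0 : (0 : ℝ) ≤ ∑ e, pr n e * (|r e - R| - μ) ^ 2 :=
      Finset.sum_nonneg fun e _ => mul_nonneg (hpr0 e) (sq_nonneg _)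
    have : ∑ e, pr n e * (|r e - R| - μ) ^ 2 =
        ∑ e, pr n e * (r e - R) ^ 2 - 2 * μ * μ + μ ^ 2 * ∑ e, pr n e := by
      have e : ∀ e, pr n e * (|r e - R| - μ) ^ 2 =
          pr n e * (r e - R) ^ 2 - 2 * μ * (pr n e * |r e - R|) + μ ^ 2 * pr n e := fun e => by
        rw [sub_sq, sq_abs]; ring
      simp only [e, Finset.sum_add_distrib, Finset.sum_sub_distrib, ← Finset.mul_sum, ← hμ]
    rw [sum_pr hn] at this
    nlinarith
  have hsq : ((X * (1 - 1 / n) + q ^ 2 - (1 + q ^ 2) * C) / (3 * (1 + M + q ^ 2))) ^ 2 ≤ μ ^ 2 :=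
    pow_le_pow_left₀ (div_nonneg hη hB.le) hμ1 2
  have hexp : ∑ e, pr n e * r e ^ 2 =
      2 * R * ∑ e, pr n e * r e - R ^ 2 * ∑ e, pr n e + ∑ e, pr n e * (r e - R) ^ 2 := by
    rw [Finset.mul_sum, Finset.mul_sum, ← Finset.sum_sub_distrib, ← Finset.sum_add_distrib]
    refine Finset.sum_congr rfl fun e _ => ?_
    ring
  rw [sum_pr hn] at hexp
  have := mul_le_mul_of_nonneg_left hpath (show (0 : ℝ) ≤ 2 * R by positivity)
  show _ ≤ ∑ e, pr n e * r e ^ 2
  nlinarith

/-- The energy of the two ends grows by a fixed amount with each level. -/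
theorem energy (hn : 0 < n) {q X M C : ℝ} (hq : 0 ≤ q) (hX : X = (1 + q) ^ 2) (hM : M = X + q ^ 2)
    (hη : 0 ≤ X * (1 - 1 / n) + q ^ 2 - (1 + q ^ 2) * C) (N : ℕ) : ∀ (K : ℕ) (F : SV n K → Fin N → ℝ),
    (∀ x y, SAdj K x y → dist1 (F x) (F y) ≤ C * |pot K x - pot K y|) → Expand n K N F →
    dist1 (F (.inl false)) (F (.inl true)) ≤ C ∧
    dist1 (F (.inl false)) (F (.inl true)) ^ 2
      + K * ((X * (1 - 1 / n) + q ^ 2 - (1 + q ^ 2) * C) / (3 * (1 + M + q ^ 2))) ^ 2 ≤ C ^ 2
  | 0, F, hup, _ => by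
    have h := hup (.inl false) (.inl true) (by simp [SAdj])
    rw [pot_false, pot_true] at h
    norm_num at h
    refine ⟨h, ?_⟩
    simp only [Nat.cast_zero, zero_mul, add_zero]
    exact pow_le_pow_left₀ (dist1_nn _ _) h 2
  | K + 1, F, hup, hexp => by
    have hn' : (0 : ℝ) < n := Nat.cast_pos.mpr hn
    set θ := ((X * (1 - 1 / n) + q ^ 2 - (1 + q ^ 2) * C) / (3 * (1 + M + q ^ 2))) ^ 2 with hθ
    set g : GV n → Fin N → ℝ := fun v i => 3 * F (emb K v) i with hg
    have hchild : ∀ e : GE n, dist1 (g (tl e)) (g (hd e)) ≤ C ∧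
        dist1 (g (tl e)) (g (hd e)) ^ 2 + K * θ ≤ C ^ 2 := by
      intro e
      refine energy hn hq hX hM hη N K (fun x i => 3 * F (cp e x) i) (fun x y h => ?_)
        (expand_child hexp e)
      rw [dist1_scale]
      have := hup (cp e x) (cp e y) ⟨e, x, y, h, rfl, rfl⟩
      rw [pot_cp, pot_cp, ← sub_div, add_sub_add_left_eq_sub, abs_div,
        abs_of_pos (by norm_num : (0 : ℝ) < 3)] at this
      linarith
    have hst : dist1 (g vs) (g vt) ≤ 3 * C := by
      have a1 := dist1_triangle (g vs) (g (vm ⟨0, hn⟩)) (g vt)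
      have a2 := dist1_triangle (g (vm ⟨0, hn⟩)) (g va) (g vt)
      have b1 := (hchild (.inl (⟨0, hn⟩, 0))).1
      have b2 := (hchild (.inl (⟨0, hn⟩, 1))).1
      have b3 := (hchild (.inr false)).1
      simp only [tl, hd, reduceIte, show (1 : Fin 3) ≠ 0 from by decide] at b1 b2 b3
      linarith
    have hm : ∀ i j, i ≠ j → 2 ≤ dist1 (g (vm i)) (g (vm j)) := by
      intro i j hij
      have h := expand_gadget hexp (fun v => match v with
        | .inr (.inr k) => if k = i then 0 else if k = j then 2 else 1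
        | _ => 1) ?_ rfl (vm i) (vm j)
      · simp [hij.symm] at h
        simpa [hg, dist1_scale] using h
      · rintro (⟨k, l⟩ | x)
        · fin_cases l <;> simp [tl, hd] <;> split_ifs <;> norm_num
        · cases x <;> simp [tl, hd]
    have hab : 2 ≤ dist1 (g va) (g vb) := by
      have h := expand_gadget hexp (fun v => match v with
        | .inr (.inl x) => if x then 2 else 0
        | _ => 1) ?_ rfl va vb
      · simp at h
        simpa [hg, dist1_scale] using h
      · rintro (⟨k, l⟩ | x)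
        · fin_cases l <;> simp [tl, hd] <;> norm_num
        · cases x <;> simp [tl, hd] <;> norm_num
    have hl := level hn hq hX hM hη g hm hab hst
    have hends : dist1 (g vs) (g vt) / 3 = dist1 (F (.inl false)) (F (.inl true)) := by
      simp only [hg, dist1_scale]
      exact mul_div_cancel_left₀ _ (by norm_num)
    rw [hends] at hl
    refine ⟨by rw [← hends]; linarith, ?_⟩
    have hsum : ∑ e, pr n e * (dist1 (g (tl e)) (g (hd e)) ^ 2 + K * θ) ≤ ∑ e : GE n, pr n e * C ^ 2 :=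
      Finset.sum_le_sum fun e _ => mul_le_mul_of_nonneg_left (hchild e).2 (by
        rcases e with ⟨i, j⟩ | x <;> simp only [pr]
        · split_ifs <;> positivity
        · norm_num)
    simp only [mul_add, Finset.sum_add_distrib, ← Finset.sum_mul, sum_pr hn, one_mul] at hsum
    push_cast
    linarith

/-- Distortions below `(3 + √5)/2` fail on treewidth three. -/
theorem lower_bound {C : ℝ} (hC : C < (3 + Real.sqrt 5) / 2) :
    ∃ (V : Type) (_ : Fintype V) (G : SimpleGraph V),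
      G.Connected ∧ TreewidthLE G 3 ∧ ¬ L1Bound G C := by
  set q := (1 + Real.sqrt 5) / 2 with hqdef
  have h5 : Real.sqrt 5 ^ 2 = 5 := Real.sq_sqrt (by norm_num)
  have hq2 : q ^ 2 = q + 1 := by rw [hqdef]; linear_combination h5 / 4
  have hq : 0 ≤ q := by rw [hqdef]; positivity
  set X := (1 + q) ^ 2 with hX
  set M := X + q ^ 2 with hM
  have hgap : 0 < X + q ^ 2 - (1 + q ^ 2) * C := by
    have e : X + q ^ 2 = (1 + q ^ 2) * (q + 1) := by rw [hX]; linear_combination -(q) * hq2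
    rw [e, ← mul_sub]
    refine mul_pos (by positivity) ?_
    rw [hqdef]; linarith
  obtain ⟨n, hn⟩ := exists_nat_gt (X / (X + q ^ 2 - (1 + q ^ 2) * C))
  have hX0 : 0 ≤ X := by rw [hX]; positivity
  have hn' : (0 : ℝ) < n := lt_of_le_of_lt (by positivity) hn
  have hnn : 0 < n := Nat.cast_pos.mp hn'
  set η := X * (1 - 1 / n) + q ^ 2 - (1 + q ^ 2) * C with hη
  have hη0 : 0 < η := by
    rw [div_lt_iff₀ hgap] at hn
    have : X / n < X + q ^ 2 - (1 + q ^ 2) * C := by rw [div_lt_iff₀ hn']; linarith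
    have e : η = X + q ^ 2 - (1 + q ^ 2) * C - X / n := by rw [hη]; ring
    linarith
  have hθ : 0 < (η / (3 * (1 + M + q ^ 2))) ^ 2 := by
    have : 0 ≤ M := by rw [hM]; positivity
    positivity
  obtain ⟨K, hK⟩ := exists_nat_gt (C ^ 2 / (η / (3 * (1 + M + q ^ 2))) ^ 2)
  rw [div_lt_iff₀ hθ] at hK
  refine ⟨SV n K, inferInstance, sG n K,
    ⟨fun x y => reach' hnn K x y⟩, treewidth_sG n K, fun hb => ?_⟩
  obtain ⟨N, f, hf⟩ := hb (slen K) (slen_pos K)
  have hup : ∀ x y, SAdj K x y → dist1 (f x) (f y) ≤ C * |pot K x - pot K y| := by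
    intro x y h
    have h1 := hf x y (reach' hnn K x y)
    have h2 : gdist (sG n K) (slen K) x y ≤ |pot K x - pot K y| :=
      (gdist_adj (slen_pos K) (show (sG n K).Adj x y from h)).trans (slen_adj h).le
    have h3 : 0 < gdist (sG n K) (slen K) x y :=
      gdist_pos (slen_pos K) (reach' hnn K x y) fun e => sadj_pot K x y h (by rw [e])
    have hC0 : 0 ≤ C := by
      by_contra hneg
      nlinarith [h1.1, h1.2, mul_neg_of_neg_of_pos (not_le.mp hneg) h3]
    exact h1.2.trans (mul_le_mul_of_nonneg_left h2 hC0)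
  have hexp : Expand n K N f := fun φ hφ _ x y =>
    (abs_le_gdist hnn φ hφ x y).trans (hf x y (reach' hnn K x y)).1
  have := (energy hnn hq hX hM hη0.le N K f hup hexp).2
  nlinarith [sq_nonneg (dist1 (f (.inl false)) (f (.inl true)))]

end Vale.Agent.P235.Slash
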